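import Vale.Agent.LinCirc.Exist

/-!
# P344: a lower bound for the number of gates of linear circuits for the discrete Fourier
transform, with unrestricted coefficients: `L(n) ≥ 3 n - n / p - 3`, `p` the least prime factor
-/

namespace Vale.Agent.Results.P344.GateElimination

open Vale.Agent.LinCirc

theorem result (n : ℕ) (hn : 2 ≤ n) :
    3 * n ≤ gateCount n + n / n.minFac + 3 ∧
    5 * n ≤ 2 * gateCount n + 6 ∧
    (n.Prime → 3 * n ≤ gateCount n + 4) ∧
    (∃ g : ℕ → (Fin n → ℂ) → ℂ, IsCircuit n (gateCount n) g ∧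
      ∀ k : Fin n, Avail n g (gateCount n) (dft n k)) ∧
    ∀ (L : ℕ) (g : ℕ → (Fin n → ℂ) → ℂ), IsGenCircuit n L g →
      (∀ k : Fin n, Avail n g L (dft n k)) → 3 * n ≤ L + n / n.minFac + 3 := by
  have h1 : 3 * n ≤ gateCount n + n / n.minFac + 3 := by
    obtain ⟨g, hg, hout⟩ := gateCount_spec n
    exact lower hn hg.gen hout
  refine ⟨h1, ?_, ?_, gateCount_spec n, fun L g hg hout => lower hn hg hout⟩
  · have h2 : n / n.minFac ≤ n / 2 :=
      Nat.div_le_div_left (Nat.minFac_prime (by omega)).two_le (by norm_num)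
    omega
  · intro hp
    rw [hp.minFac_eq, Nat.div_self (by omega)] at h1
    omega

end Vale.Agent.Results.P344.GateElimination
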